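import Vale.Agent.P365.T2.H984.L0

/-!
# P365-T2, X-L0, complements: arbitrary matrices dominated by `AT N`, per-site averages, one more
bad site, range of the energy (k6)
-/

set_option linter.all false

namespace P365T2.H984

open P365L P365O P365T1 Matrix Complex MeasureTheory Finset
open Vale.Agent.P365.J376

variable {N : ℕ} [NeZero N]

/-- pointwise exponential bound -/
theorem exp_dg_le {μ : ℝ} (hμ : 0 < μ) (hμ1 : μ ≤ 1) (S : Finset (Tor N)) (b a : Tor N) :
    Real.exp (-2 * μ * dg (nbT N) S b a) ≤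
      Real.exp (-(μ * (nrm (a - b) : ℝ) / 3)) * ZB S b := by
  set n : ℕ := nrm (a - b) with hn
  set d : ℕ := dg (nbT N) S b a with hd
  have hZ1 := one_le_ZB S b
  have hZ0 : 0 < ZB S b := by linarith
  have hlog2 : 0 < Real.log 2 := Real.log_pos (by norm_num)
  have hlog8 : Real.log 8 = 3 * Real.log 2 := by
    rw [show (8 : ℝ) = 2 ^ 3 by norm_num, Real.log_pow]; norm_num
  have h1 : (2 : ℝ) ^ n * Real.exp (-2 * Real.log 8 * d) ≤ ZB S b :=
    Finset.single_le_sum (f := fun a => (2 : ℝ) ^ (nrm (a - b)) *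
    Real.exp (-2 * Real.log 8 * dg (nbT N) S b a)) (fun _ _ => by positivity) (mem_univ a)
  have h2 : (n : ℝ) * Real.log 2 + -2 * Real.log 8 * d ≤ Real.log (ZB S b) := by
    have h3 := Real.log_le_log (by positivity) h1
    rwa [Real.log_mul (by positivity) (by positivity), Real.log_pow, Real.log_exp] at h3
  rw [hlog8] at h2
  have hlZ : 0 ≤ Real.log (ZB S b) := Real.log_nonneg hZ1
  have h069 : 0.6931471803 < Real.log 2 := Real.log_two_gt_d9
  have h3 : -2 * μ * d ≤ -(μ * n / 3) + Real.log (ZB S b) := by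
    have h4 : (n : ℝ) * Real.log 2 ≤ 6 * Real.log 2 * d + Real.log (ZB S b) := by linarith
    have h5 : (n : ℝ) ≤ 6 * d + Real.log (ZB S b) / Real.log 2 := by
      rw [← sub_nonneg]
      have : 6 * (d : ℝ) + Real.log (ZB S b) / Real.log 2 - n =
          (6 * Real.log 2 * d + Real.log (ZB S b) - n * Real.log 2) / Real.log 2 := by
        field_simp
      rw [this]
      exact div_nonneg (by linarith) hlog2.le
    have h6 : Real.log (ZB S b) / Real.log 2 ≤ 3 * Real.log (ZB S b) := by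
      rw [div_le_iff₀ hlog2]
      nlinarith
    nlinarith [mul_le_mul_of_nonneg_left h5 hμ.le, mul_le_mul_of_nonneg_right hμ1 hlZ,
      mul_le_mul_of_nonneg_left h6 hμ.le]
  calc Real.exp (-2 * μ * d) ≤ Real.exp (-(μ * n / 3) + Real.log (ZB S b)) :=
        Real.exp_le_exp.2 h3
    _ = _ := by rw [Real.exp_add, Real.exp_log hZ0]

/-- one more bad site at the base point costs one bond -/
theorem gd_insert_le {ι : Type*} [DecidableEq ι] {nb : ι → Finset ι} {b : ι} (S : Finset ι)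
    {n : ℕ} {l : List ι} (h : l ∈ Qp nb b n) (hn : l.Nodup) :
    gd S l ≤ gd (insert b S) l + 1 := by
  have hlast : ∀ (n : ℕ) (l : List ι), l ∈ Qp nb b n → l.Nodup → b ∈ l := by
    intro n
    induction n with
    | zero =>
      intro l h _
      rw [mem_Qp_zero] at h
      simp [h]
    | succ n ih =>
      intro l h hn
      rw [mem_Qp_succ] at h
      obtain ⟨l', h1, y, hy, rfl⟩ := h
      exact List.mem_cons_of_mem _ (ih l' h1 (List.nodup_cons.1 hn).2)
  induction n generalizing l with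
  | zero =>
    rw [mem_Qp_zero] at h
    subst h
    simp [gd]
  | succ n ih =>
    rw [mem_Qp_succ] at h
    obtain ⟨l', h1, y, hy, rfl⟩ := h
    have hn' := List.nodup_cons.1 hn
    have hyb : y ≠ b := fun hc => hn'.1 (hc ▸ hlast n l' h1 hn'.2)
    have h2 := ih h1 hn'.2
    have hlen := length_of_mem_Qp h1
    cases l' with
    | nil => simp at hlen
    | cons z t =>
      simp only [gd]
      by_cases hz : z = b
      · -- then the list is `[y, b]`
        have hn0 : n = 0 := by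
          rcases Nat.eq_zero_or_pos n with h0 | h0
          · exact h0
          · exfalso
            obtain ⟨m, rfl⟩ : ∃ m, n = m + 1 := ⟨n - 1, by omega⟩
            rw [mem_Qp_succ] at h1
            obtain ⟨l'', h3, w, hw, h4⟩ := h1
            rw [List.cons.injEq] at h4
            obtain ⟨rfl, rfl⟩ := h4
            exact (List.nodup_cons.1 hn'.2).1 (hz ▸ hlast m l'' h3
              (List.nodup_cons.1 hn'.2).2)
        subst hn0
        rw [mem_Qp_zero] at h1
        rw [h1]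
        simp only [gd]
        split_ifs <;> omega
      · have h3 : (y ∈ insert b S ∨ z ∈ insert b S) ↔ (y ∈ S ∨ z ∈ S) := by
          simp [Finset.mem_insert, hyb, hz]
        by_cases h4 : y ∈ S ∨ z ∈ S
        · rw [if_pos h4, if_pos (h3.2 h4)]
          simpa using h2
        · rw [if_neg h4, if_neg (fun hc => h4 (h3.1 hc))]
          omega

theorem dg_insert_le (S : Finset (Tor N)) (b a : Tor N) :
    dg (nbT N) S b a ≤ dg (nbT N) (insert b S) b a + 1 := by
  obtain ⟨n, l, h1, h2, h3, h4⟩ := Rch_dg (conn_tor b) (insert b S) a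
  exact dg_le ⟨n, l, h1, h2, h3, (gd_insert_le S h1 h2).trans (Nat.add_le_add_right h4 1)⟩

theorem ZB_insert_le (S : Finset (Tor N)) (b : Tor N) : ZB (insert b S) b ≤ 64 * ZB S b := by
  unfold ZB
  rw [Finset.mul_sum]
  refine Finset.sum_le_sum fun a _ => ?_
  have h1 : (dg (nbT N) S b a : ℝ) ≤ dg (nbT N) (insert b S) b a + 1 := by
    exact_mod_cast dg_insert_le S b a
  have h2 : Real.exp (2 * Real.log 8) = 64 := by
    have : 2 * Real.log 8 = (2 : ℕ) * Real.log 8 := by push_cast; ring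
    rw [this, Real.exp_nat_mul, Real.exp_log (by norm_num)]
    norm_num
  have hlog : 0 ≤ Real.log 8 := Real.log_nonneg (by norm_num)
  have h3 : Real.exp (-2 * Real.log 8 * dg (nbT N) (insert b S) b a) ≤
      64 * Real.exp (-2 * Real.log 8 * dg (nbT N) S b a) := by
    rw [← h2, ← Real.exp_add]
    apply Real.exp_le_exp.2
    nlinarith
  calc (2 : ℝ) ^ nrm (a - b) * Real.exp (-2 * Real.log 8 * dg (nbT N) (insert b S) b a)
      ≤ (2 : ℝ) ^ nrm (a - b) * (64 * Real.exp (-2 * Real.log 8 * dg (nbT N) S b a)) :=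
        mul_le_mul_of_nonneg_left h3 (by positivity)
    _ = _ := by ring

section labels

variable {Λ : Type*} [Fintype Λ] [DecidableEq Λ]

/-- average of `ZB` at one site -/
theorem ZB_labels_b (p : Λ → ℝ) (hp : ∀ l, 0 ≤ p l) (hp1 : ∑ l, p l = 1)
    (good : Λ) (h1 : 1 - p good ≤ 1 / 8192) (b : Tor N) :
    ∑ L : Tor N → Λ, (∏ x, p (L x)) *
      ZB (Finset.univ.filter fun x => L x ≠ good) b ≤ 6 := by
  classical
  letI : MeasurableSpace Λ := ⊤
  haveI : MeasurableSingletonClass Λ := ⟨fun _ => trivial⟩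
  obtain ⟨κ, hκ⟩ : ∃ κ : Tor N → Measure Λ,
      κ = fun x => ∑ l, ENNReal.ofReal (p l) • Measure.dirac l := ⟨_, rfl⟩
  have hκs : ∀ x (S : Set Λ), (κ x).real S = ∑ l, p l * S.indicator (fun _ => (1 : ℝ)) l := by
    intro x S
    simp only [hκ, Measure.real]
    rw [Measure.finset_sum_apply, ENNReal.toReal_sum (fun l _ => by
      rw [Measure.smul_apply, smul_eq_mul]
      exact ENNReal.mul_ne_top ENNReal.ofReal_ne_top (measure_ne_top _ _))]
    refine Finset.sum_congr rfl fun l _ => ?_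
    rw [Measure.smul_apply, smul_eq_mul, ENNReal.toReal_mul, ENNReal.toReal_ofReal (hp l),
      Measure.dirac_apply' _ (by trivial)]
    congr 1
    by_cases h : l ∈ S <;> simp [h]
  haveI : ∀ x, IsProbabilityMeasure (κ x) := by
    intro x
    refine ⟨?_⟩
    simp only [hκ]
    rw [Measure.finset_sum_apply]
    simp only [Measure.smul_apply, smul_eq_mul, measure_univ, mul_one]
    rw [← ENNReal.ofReal_sum_of_nonneg fun l _ => hp l, hp1, ENNReal.ofReal_one]
  have hsing : ∀ x l, (κ x).real {l} = p l := by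
    intro x l
    rw [hκs, Finset.sum_eq_single l]
    · simp
    · intro l' _ hne; simp [hne]
    · intro h; exact absurd (Finset.mem_univ _) h
  set B : (Tor N → Λ) → Finset (Tor N) := fun L => Finset.univ.filter fun x => L x ≠ good with hB
  have hmeas : ∀ S : Set (Tor N → Λ), MeasurableSet S := fun S => S.toFinite.measurableSet
  have hgood : ∀ x, (κ x).real {l | l ≠ good} ≤ 1 / 8192 := by
    intro x
    have hc : {l : Λ | l ≠ good} = {good}ᶜ := by ext l; simp
    rw [hc, measureReal_compl (MeasurableSet.singleton good), hsing, probReal_univ]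
    exact h1
  have hlog : 0 ≤ Real.log 8 := Real.log_nonneg (by norm_num)
  have h8 : Real.exp (Real.log 8) = 8 := Real.exp_log (by norm_num)
  have hs : ∀ k : ℕ, Real.exp (4 * Real.log 8 * k) = (4096 : ℝ) ^ k := by
    intro k
    have : 4 * Real.log 8 * k = (4 * k : ℕ) * Real.log 8 := by push_cast; ring
    rw [this, Real.exp_nat_mul, h8, pow_mul]
    norm_num
  have he1 : Real.exp 1 ≤ 2.7182818286 := Real.exp_one_lt_d9.le
  have hE : ∀ l : List (Tor N), l.Nodup →
      ∫ ω, Real.exp (4 * Real.log 8 * (l.countP (fun z => decide (z ∈ B ω)) : ℕ))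
        ∂(Measure.pi κ) ≤ Real.exp 1 ^ l.length := by
    intro l hl
    refine coins (P := Measure.pi κ) (J := Tor N ⊕ Empty)
      (XX good (fun k : Empty => k.elim) (fun k => k.elim)) (fun j => hmeas _)
      (qq (1 / 8192) (fun k : Empty => k.elim)) ?_
      (coins_prod κ good (fun k : Empty => k.elim) (fun k => k.elim) (fun k => k.elim)
        (τ := 1 / 8192) (by norm_num) (by norm_num) (fun k => k.elim) hgood (fun k => k.elim))
      (fun j => Sum.elim (fun x => {x}) (fun k : Empty => k.elim) j) (fun x => hmeas _) ?_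
      (s := 4 * Real.log 8) (by positivity) ?_ l hl
    · intro j
      cases j with
      | inl x => exact (by norm_num : (0 : ℝ) ≤ 1 / 8192)
      | inr k => exact k.elim
    · intro ω x hx
      refine ⟨Sum.inl x, ?_, ?_⟩
      · simpa [XX, hB] using hx
      · simp
    · intro x
      rw [Fintype.sum_sum_type]
      simp only [Sum.elim_inl, Finset.mem_singleton, Finset.card_singleton, qq, hs, pow_one,
        Finset.univ_eq_empty, Finset.sum_empty, add_zero]
      rw [Finset.sum_ite_eq, if_pos (mem_univ x)]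
      norm_num
  have hq : (4 : ℕ) * Real.exp 1 * Real.exp (-2 * Real.log 8) ≤ 1 / 4 := by
    have h2 : Real.exp (-2 * Real.log 8) = 1 / 64 := by
      have : -2 * Real.log 8 = -((2 : ℕ) * Real.log 8) := by push_cast; ring
      rw [this, Real.exp_neg, Real.exp_nat_mul, h8]
      norm_num
    rw [h2]
    push_cast
    linarith
  have hterm : ∫ ω, ZB (B ω) b ∂(Measure.pi κ) ≤ 2 * Real.exp 1 := by
    refine integral_sum_pow_le (nb := nbT N) (b := b) (conn_tor b) (fun x => hmeas _)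
      (g := fun a => nrm (a - b)) (by simp only [sub_self]; exact nrm_zero) ?_ hlog (Δ := 4)
      (fun x => card_nbT_le x) (Real.exp_pos _).le hE hq
    intro x y hy
    have h2 : y - b = (x - b) + (y - x) := by abel
    rw [h2]
    exact (nrm_add_le _ _).trans (Nat.add_le_add_left (nrm_nbs (mem_nbT.1 hy)) _)
  have hsum : ∫ ω, ZB (B ω) b ∂(Measure.pi κ) ≤ 6 := hterm.trans (by linarith)
  rw [integral_fintype Integrable.of_finite] at hsum
  refine le_trans (le_of_eq ?_) hsum
  refine Finset.sum_congr rfl fun L _ => ?_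
  rw [smul_eq_mul]
  congr 1
  rw [Measure.real, ← Set.univ_pi_singleton, Measure.pi_pi, ENNReal.toReal_prod]
  exact Finset.prod_congr rfl fun x _ => (hsing x (L x)).symm

/-- average of `ZB` with the base point added to the bad set -/
theorem ZB_insert_labels_b (p : Λ → ℝ) (hp : ∀ l, 0 ≤ p l) (hp1 : ∑ l, p l = 1)
    (good : Λ) (h1 : 1 - p good ≤ 1 / 8192) (b : Tor N) :
    ∑ L : Tor N → Λ, (∏ x, p (L x)) *
      ZB (insert b (Finset.univ.filter fun x => L x ≠ good)) b ≤ 384 := by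
  calc ∑ L : Tor N → Λ, (∏ x, p (L x)) *
        ZB (insert b (Finset.univ.filter fun x => L x ≠ good)) b
      ≤ ∑ L : Tor N → Λ, 64 * ((∏ x, p (L x)) *
        ZB (Finset.univ.filter fun x => L x ≠ good) b) := by
        refine Finset.sum_le_sum fun L _ => ?_
        have h2 := mul_le_mul_of_nonneg_left
          (ZB_insert_le (Finset.univ.filter fun x => L x ≠ good) b)
          (Finset.prod_nonneg fun x _ => hp (L x) : 0 ≤ ∏ x, p (L x))
        linarith
    _ = 64 * ∑ L : Tor N → Λ, (∏ x, p (L x)) *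
        ZB (Finset.univ.filter fun x => L x ≠ good) b := by rw [Finset.mul_sum]
    _ ≤ 64 * 6 := mul_le_mul_of_nonneg_left (ZB_labels_b p hp hp1 good h1 b) (by norm_num)
    _ = 384 := by norm_num

end labels

/-! ### arbitrary matrices dominated by `AT N` -/

section gen

variable {A : Matrix (Tor N) (Tor N) ℝ}

theorem weight_okA (hAle : ∀ x y, |A x y| ≤ AT N x y) {W : Tor N → ℂ} (hW : ∀ x, (W x).im < 0)
    (B : Finset (Tor N)) {μ : ℝ} (hμ : 0 ≤ μ)
    (hbig : ∀ x, x ∉ B → 8 * Real.sinh μ ≤ -(W x).im) (b x : Tor N) :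
    ∑ y, |A x y| * |Real.sinh (μ * dg (nbT N) B b x - μ * dg (nbT N) B b y)| ≤
      (-(W x).im) / 2 := by
  refine le_trans (Finset.sum_le_sum fun y _ => ?_) (weight_ok hW B hμ hbig b x)
  refine mul_le_mul_of_nonneg_right ?_ (abs_nonneg _)
  rw [abs_of_nonneg (AT_nonneg x y)]
  exact hAle x y

theorem col_fourA (hA : A.IsSymm) (hAle : ∀ x y, |A x y| ≤ AT N x y) {W : Tor N → ℂ}
    (hW : ∀ x, (W x).im < 0)
    (B : Finset (Tor N)) {μ : ℝ} (hμ : 0 < μ) (hμ1 : μ ≤ 1)
    (hbig : ∀ x, x ∉ B → 8 * Real.sinh μ ≤ -(W x).im) (b : Tor N) :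
    ∑ a, (-(W a).im) * (-(W b).im) * KK A W a b * (nrm (a - b) : ℝ) ^ 4 ≤
      4 * (1944 / μ ^ 4 * ZB B b) := by
  have h1 := CT_col hA hW (φ := fun x => μ * dg (nbT N) B b x)
    (fun x => weight_okA hAle hW B hμ.le hbig b x) b
  have he : ∀ x, 0 ≤ -(W x).im := fun x => by linarith [hW x]
  have hC : 0 ≤ 1944 / μ ^ 4 * ZB B b := mul_nonneg (by positivity) (ZB_nonneg B b)
  calc ∑ a, (-(W a).im) * (-(W b).im) * KK A W a b * (nrm (a - b) : ℝ) ^ 4
      ≤ ∑ a, ((-(W b).im) * ((-(W a).im) * KK A W a b *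
          Real.exp (2 * (μ * dg (nbT N) B b a - μ * dg (nbT N) B b b)))) *
          (1944 / μ ^ 4 * ZB B b) := by
        refine Finset.sum_le_sum fun a _ => ?_
        have h2 := pow_mul_exp_le hμ hμ1 B b a
        have h3 : Real.exp (2 * (μ * dg (nbT N) B b a - μ * dg (nbT N) B b b)) *
            Real.exp (-2 * μ * dg (nbT N) B b a) = 1 := by
          rw [dg_self, Nat.cast_zero, mul_zero, sub_zero, ← Real.exp_add]
          have : 2 * (μ * dg (nbT N) B b a) + -2 * μ * dg (nbT N) B b a = 0 := by ring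
          rw [this, Real.exp_zero]
        have h4 : 0 ≤ (-(W b).im) * ((-(W a).im) * KK A W a b *
            Real.exp (2 * (μ * dg (nbT N) B b a - μ * dg (nbT N) B b b))) :=
          mul_nonneg (he b) (mul_nonneg (mul_nonneg (he a) (KK_nonneg _ _)) (Real.exp_pos _).le)
        refine le_trans (le_of_eq ?_) (mul_le_mul_of_nonneg_left h2 h4)
        have : ∀ u v k p q n : ℝ, p * q = 1 → u * v * k * n = v * (u * k * p) * (n * q) := by
          intro u v k p q n h
          calc u * v * k * n = u * v * k * n * (p * q) := by rw [h, mul_one]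
            _ = _ := by ring
        exact this _ _ _ _ _ _ h3
    _ = ((-(W b).im) * ∑ a, (-(W a).im) * KK A W a b *
          Real.exp (2 * (μ * dg (nbT N) B b a - μ * dg (nbT N) B b b))) *
          (1944 / μ ^ 4 * ZB B b) := by
        rw [Finset.mul_sum, Finset.sum_mul]
    _ ≤ 4 * (1944 / μ ^ 4 * ZB B b) := mul_le_mul_of_nonneg_right h1 hC

theorem four_pathA (hA : A.IsSymm) (hAle : ∀ x y, |A x y| ≤ AT N x y) {W : Tor N → ℂ}
    (hW : ∀ x, (W x).im < 0) (B : Finset (Tor N)) {ε : ℝ} (h0 : 0 < ε) (h1 : ε ≤ 1)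
    (hbig : ∀ x, x ∉ B → ε ≤ -(W x).im) : En4 A W ≤ 509607936 / ε ^ 4 * ∑ b, ZB B b := by
  unfold En4
  rw [Finset.sum_comm, Finset.mul_sum]
  refine Finset.sum_le_sum fun b _ => ?_
  refine (col_fourA hA hAle hW B (μ := ε / 16) (by positivity) (by linarith)
    (fun x hx => (sinh_le h0 h1).trans (hbig x hx)) b).trans (le_of_eq ?_)
  field_simp
  ring

/-- expectation of any functional which is pathwise at most `c * En4` -/
theorem four_momentA_of (hA : A.IsSymm) (hAle : ∀ x y, |A x y| ≤ AT N x y)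
    {Λ : Type} [Fintype Λ] (p : Λ → ℝ) (hp : ∀ l, 0 ≤ p l)
    (hp1 : ∑ l, p l = 1) (good : Λ) (h1 : 1 - p good ≤ 1 / 8192) (ν : Λ → Measure ℝ)
    (hν : ∀ k, IsProbabilityMeasure (ν k)) (E : ℝ)
    (e : (Tor N → Λ) → Tor N → ℝ) (he : ∀ l x, 0 < e l x) {ε : ℝ} (h0 : 0 < ε) (hε : ε ≤ 1)
    (hbig : ∀ l x, l x = good → ε ≤ e l x) {c : ℝ} (hc : 0 ≤ c)
    (G : (Tor N → Λ) → (Tor N → ℂ) → ℝ) (hG0 : ∀ l W, (∀ x, (W x).im < 0) → 0 ≤ G l W)
    (hG : ∀ l W, (∀ x, (W x).im < 0) → G l W ≤ c * En4 A W) :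
    AvG p ν E e G ≤ c * (3057647616 / ε ^ 4) * Fintype.card (Tor N) := by
  classical
  have hEx : ∀ l : Tor N → Λ, Ex (fun x => ν (l x)) E (e l) (G l) ≤
      c * (509607936 / ε ^ 4 * ∑ b, ZB (Finset.univ.filter fun x => l x ≠ good) b) := by
    intro l
    have him : ∀ v x, (WV E (e l) v x).im < 0 := by
      intro v x
      rw [P365T1.WV_im]
      linarith [he l x]
    refine Ex_le (fun v => hG0 l _ (him v)) fun v => ?_
    refine (hG l _ (him v)).trans (mul_le_mul_of_nonneg_left ?_ hc)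
    refine four_pathA hA hAle (him v) (Finset.univ.filter fun x => l x ≠ good) h0 hε ?_
    intro x hx
    rw [P365T1.WV_im, neg_neg]
    refine hbig l x ?_
    by_contra hcon
    exact hx (by simp [hcon])
  unfold AvG
  calc ∑ l : Tor N → Λ, (∏ x, p (l x)) * Ex (fun x => ν (l x)) E (e l) (G l)
      ≤ ∑ l : Tor N → Λ, (∏ x, p (l x)) *
        (c * (509607936 / ε ^ 4 * ∑ b, ZB (Finset.univ.filter fun x => l x ≠ good) b)) :=
        Finset.sum_le_sum fun l _ => mul_le_mul_of_nonneg_left (hEx l)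
          (Finset.prod_nonneg fun x _ => hp _)
    _ = c * (509607936 / ε ^ 4) * ∑ l : Tor N → Λ, (∏ x, p (l x)) *
        ∑ b, ZB (Finset.univ.filter fun x => l x ≠ good) b := by
        rw [Finset.mul_sum]
        exact Finset.sum_congr rfl fun l _ => by ring
    _ ≤ c * (509607936 / ε ^ 4) * (6 * Fintype.card (Tor N)) :=
        mul_le_mul_of_nonneg_left (ZB_sum_labels p hp hp1 good h1) (by positivity)
    _ = c * (3057647616 / ε ^ 4) * Fintype.card (Tor N) := by ring

/-- kernel sums: any nonnegative kernel `k x y ≤ c nrm(x-y)⁴` -/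
theorem kernelA_le (hA : A.IsSymm) (hAle : ∀ x y, |A x y| ≤ AT N x y)
    {Λ : Type} [Fintype Λ] (p : Λ → ℝ) (hp : ∀ l, 0 ≤ p l)
    (hp1 : ∑ l, p l = 1) (good : Λ) (h1 : 1 - p good ≤ 1 / 8192) (ν : Λ → Measure ℝ)
    (hν : ∀ k, IsProbabilityMeasure (ν k)) (E : ℝ)
    (e : (Tor N → Λ) → Tor N → ℝ) (he : ∀ l x, 0 < e l x) {ε : ℝ} (h0 : 0 < ε) (hε : ε ≤ 1)
    (hbig : ∀ l x, l x = good → ε ≤ e l x) {c : ℝ} (hc : 0 ≤ c) (k : Tor N → Tor N → ℝ)
    (hk0 : ∀ x y, 0 ≤ k x y) (hk : ∀ x y, k x y ≤ c * (nrm (x - y) : ℝ) ^ 4) :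
    AvG p ν E e (fun l W => ∑ x, ∑ y, (-(W x).im) * (-(W y).im) * KK A W x y * k x y) ≤
      c * (3057647616 / ε ^ 4) * Fintype.card (Tor N) := by
  refine four_momentA_of hA hAle p hp hp1 good h1 ν hν E e he h0 hε hbig hc _ ?_ ?_
  · intro l W hW
    refine Finset.sum_nonneg fun x _ => Finset.sum_nonneg fun y _ => ?_
    have h2 := hW x
    have h3 := hW y
    exact mul_nonneg (mul_nonneg (mul_nonneg (by linarith) (by linarith)) (KK_nonneg _ _))
      (hk0 x y)
  · intro l W hW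
    unfold En4
    rw [Finset.mul_sum]
    refine Finset.sum_le_sum fun x _ => ?_
    rw [Finset.mul_sum]
    refine Finset.sum_le_sum fun y _ => ?_
    have h2 := hW x
    have h3 := hW y
    calc (-(W x).im) * (-(W y).im) * KK A W x y * k x y
        ≤ (-(W x).im) * (-(W y).im) * KK A W x y * (c * (nrm (x - y) : ℝ) ^ 4) :=
          mul_le_mul_of_nonneg_left (hk x y) (mul_nonneg (mul_nonneg (by linarith) (by linarith))
            (KK_nonneg _ _))
      _ = _ := by ring

/-- `M4`, generic matrix -/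
theorem M4A_le (hA : A.IsSymm) (hAle : ∀ x y, |A x y| ≤ AT N x y)
    {Λ : Type} [Fintype Λ] (p : Λ → ℝ) (hp : ∀ l, 0 ≤ p l)
    (hp1 : ∑ l, p l = 1) (good : Λ) (h1 : 1 - p good ≤ 1 / 8192) (ν : Λ → Measure ℝ)
    (hν : ∀ k, IsProbabilityMeasure (ν k)) (E : ℝ)
    (e : (Tor N → Λ) → Tor N → ℝ) (he : ∀ l x, 0 < e l x) {ε : ℝ} (h0 : 0 < ε) (hε : ε ≤ 1)
    (hbig : ∀ l x, l x = good → ε ≤ e l x) {κ : Type*} [Fintype κ] (a : κ → Tor N → ℝ)
    {Lf : ℝ} (ha : ∀ x y, dq a x y ≤ Lf * (nrm (x - y) : ℝ) ^ 2) :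
    AvG p ν E e (fun l W => ∑ x, ∑ y, (-(W x).im) * (-(W y).im) * KK A W x y *
      dq a x y ^ 2) ≤ Lf ^ 2 * (3057647616 / ε ^ 4) * Fintype.card (Tor N) := by
  refine kernelA_le hA hAle p hp hp1 good h1 ν hν E e he h0 hε hbig (sq_nonneg Lf) _
    (fun x y => sq_nonneg _) fun x y => ?_
  calc dq a x y ^ 2 ≤ (Lf * (nrm (x - y) : ℝ) ^ 2) ^ 2 :=
        pow_le_pow_left₀ (dq_nonneg a x y) (ha x y) 2
    _ = _ := by ring

/-- **range of the energy (k6)**: the tail kernel `d² - h_R(d) = d⁴ / (R² + d²)` -/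
theorem range_le (hA : A.IsSymm) (hAle : ∀ x y, |A x y| ≤ AT N x y)
    {Λ : Type} [Fintype Λ] (p : Λ → ℝ) (hp : ∀ l, 0 ≤ p l)
    (hp1 : ∑ l, p l = 1) (good : Λ) (h1 : 1 - p good ≤ 1 / 8192) (ν : Λ → Measure ℝ)
    (hν : ∀ k, IsProbabilityMeasure (ν k)) (E : ℝ)
    (e : (Tor N → Λ) → Tor N → ℝ) (he : ∀ l x, 0 < e l x) {ε : ℝ} (h0 : 0 < ε) (hε : ε ≤ 1)
    (hbig : ∀ l x, l x = good → ε ≤ e l x) {κ : Type*} [Fintype κ] (a : κ → Tor N → ℝ)
    {Lf : ℝ} (ha : ∀ x y, dq a x y ≤ Lf * (nrm (x - y) : ℝ) ^ 2) {R : ℝ} (hR : 0 < R) :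
    AvG p ν E e (fun l W => ∑ x, ∑ y, (-(W x).im) * (-(W y).im) * KK A W x y *
      (dq a x y - R ^ 2 * dq a x y / (R ^ 2 + dq a x y))) ≤
      Lf ^ 2 / R ^ 2 * (3057647616 / ε ^ 4) * Fintype.card (Tor N) := by
  have hR2 : 0 < R ^ 2 := by positivity
  have key : ∀ x y, dq a x y - R ^ 2 * dq a x y / (R ^ 2 + dq a x y) =
      dq a x y ^ 2 / (R ^ 2 + dq a x y) := by
    intro x y
    have h2 := dq_nonneg a x y
    field_simp
    ring
  refine kernelA_le hA hAle p hp hp1 good h1 ν hν E e he h0 hε hbig (by positivity) _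
    (fun x y => ?_) fun x y => ?_
  · rw [key]
    have h2 := dq_nonneg a x y
    positivity
  · rw [key]
    have h2 := dq_nonneg a x y
    calc dq a x y ^ 2 / (R ^ 2 + dq a x y) ≤ dq a x y ^ 2 / R ^ 2 :=
          div_le_div_of_nonneg_left (sq_nonneg _) hR2 (by linarith)
      _ ≤ (Lf * (nrm (x - y) : ℝ) ^ 2) ^ 2 / R ^ 2 :=
          div_le_div_of_nonneg_right (pow_le_pow_left₀ h2 (ha x y) 2) hR2.le
      _ = _ := by ring

end gen

end P365T2.H984
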