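import Vale.Agent.P365.T2.H213.Spec
import Vale.Agent.P365.T2.H984.L0b

/-!
# P365-T2, X-L0: the fields (k6) `m4_start`, `m4` of `StW.Ok` for the stages of the worlds
-/

set_option linter.all false

namespace P365T2.H984

open P365L P365O P365T1 P365L.TL P365T1.Conc Matrix Complex MeasureTheory Filter Topology Set
open Vale.Agent.P365.J376 P365T2.SeqG P365T2.ConcG P365V4.Free P365T2.H213
open scoped ComplexConjugate ENNReal

variable {N : ℕ} [NeZero N]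

theorem card_torR : (Fintype.card (Tor N) : ℝ) = (N : ℝ) ^ 2 := by
  have : Fintype.card (Tor N) = N * N := by
    unfold Tor
    rw [Fintype.card_prod, ZMod.card]
  rw [this]
  push_cast
  ring

/-- lower bound of the profile of the stage at the good sites -/
theorem eT_good_ge {D : V4 N} {ρ : Measure ℝ} (hD : D.Ok ρ) {i : ℕ} (hi : i ≤ D.I) (τ : ℝ)
    (l : Tor N → D.Λ) (x : Tor N) (hx : l x = D.good) :
    Real.exp (-τ) * (D.e0 i * Real.exp (-(D.a i))) ≤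
      eT (D.us (i + 1)) (D.Ws (i + 1)) τ l x := by
  have h1 : Real.exp (-(D.a i)) ≤ D.wf i l x := by
    unfold V3.wf
    split_ifs with h2 h3
    · exact Real.exp_le_one_iff.2 (by linarith [hD.a_nonneg i hi])
    · exact le_rfl
    · exact absurd (by rw [hx]; exact hD.mov_good) h3
  have h4 : D.e0 i * Real.exp (-(D.a i)) ≤ D.Ws (i + 1) l x := by
    simp only [V3.Ws]
    have h5 := mul_le_mul_of_nonneg_left h1 (hD.e0_pos i hi).le
    have h6 := mul_nonneg (hD.t_pos i (by omega)).le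
      (hD.toOk.Ws_nonneg (show i ≤ D.I + 1 by omega) l x)
    linarith
  have h7 := hD.us_nonneg (i + 1) l x
  have h8 := mul_le_mul_of_nonneg_left h4 (Real.exp_pos (-τ)).le
  unfold eT
  linarith

/-- **fourth moment at time `τ` of the stage `i + 1`**, any world `V4` -/
theorem m4_le {D : V4 N} {ρ : Measure ℝ} (hD : D.Ok ρ) (E : ℝ) {i : ℕ} (hi : i ≤ D.I) (S : ℝ)
    {τ : ℝ} (hτ : 0 ≤ τ) :
    (stOf D i S).M4 E τ ≤
      48923 * 10 ^ 6 * (1 / (Real.exp (-τ) * (D.e0 i * Real.exp (-(D.a i)))) ^ 4) *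
        (N : ℝ) ^ 2 := by
  have h1 : 0 < D.e0 i * Real.exp (-(D.a i)) := mul_pos (hD.e0_pos i hi) (Real.exp_pos _)
  have h2 : D.e0 i * Real.exp (-(D.a i)) ≤ 1 := by
    have h3 : Real.exp (-(D.a i)) ≤ 1 := Real.exp_le_one_iff.2 (by linarith [hD.a_nonneg i hi])
    calc D.e0 i * Real.exp (-(D.a i)) ≤ 1 * 1 :=
          mul_le_mul (hD.e0_le i hi) h3 (Real.exp_pos _).le zero_le_one
      _ = 1 := one_mul 1
  have h3 : Real.exp (-τ) ≤ 1 := Real.exp_le_one_iff.2 (by linarith)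
  have h4 := Real.exp_pos (-τ)
  have he : ∀ l x, 0 < eT (D.us (i + 1)) (D.Ws (i + 1)) τ l x := by
    intro l x
    have h5 := hD.us_ge (i + 1) l x
    have h6 := hD.b_pos
    have h7 := mul_nonneg h4.le (hD.toOk.Ws_nonneg (show i + 1 ≤ D.I + 1 by omega) l x)
    unfold eT
    linarith
  have h := M4A_le (N := N) (AT_symm N) (fun x y => (abs_of_nonneg (AT_nonneg x y)).le) D.p
    hD.p_nonneg hD.p_sum D.good hD.p_good D.ν hD.prob E
    (eT (D.us (i + 1)) (D.Ws (i + 1)) τ) he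
    (ε := Real.exp (-τ) * (D.e0 i * Real.exp (-(D.a i)))) (by positivity)
    (by nlinarith) (fun l x hx => eT_good_ge hD hi τ l x hx) (phi N) dq_phi_le
  rw [card_torR] at h
  refine le_trans (le_of_eq ?_) (h.trans ?_)
  · rfl
  · refine mul_le_mul_of_nonneg_right ?_ (by positivity)
    have h8 : 0 < Real.exp (-τ) * (D.e0 i * Real.exp (-(D.a i))) := by positivity
    rw [div_eq_mul_one_div (3057647616 : ℝ), ← mul_assoc]
    refine mul_le_mul_of_nonneg_right (by norm_num) (by positivity)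

/-- **(F1)** in the concrete world -/
theorem m4_world {lam : ℝ} {yf : ℕ → ℤ × ℤ} {Vsf : ℕ → ℤ × ℤ → ℝ} {rs I : ℕ} {b : ℝ}
    {fl : (PP 8 yf rs I).Lb → Tor N → ℝ} {b' : ℝ} {ρ : Measure ℝ}
    (hD : (World lam yf Vsf rs I N b fl b').Ok ρ) (E : ℝ) {i : ℕ} (hi : i ≤ I) (S : ℝ)
    {τ : ℝ} (hτ : 0 ≤ τ) :
    (stOf (World lam yf Vsf rs I N b fl b') i S).M4 E τ ≤
      48923 * 10 ^ 6 * Real.exp (4 * (τ + rr 8 rs i + aS 8 rs i)) * (N : ℝ) ^ 2 := by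
  refine (m4_le hD E (i := i) hi S hτ).trans (le_of_eq ?_)
  congr 2
  change 1 / (Real.exp (-τ) * (Real.exp (-(rr 8 rs i : ℝ)) * Real.exp (-(aS 8 rs i)))) ^ 4 = _
  rw [← Real.exp_add, ← Real.exp_add, ← Real.exp_nat_mul, one_div, ← Real.exp_neg]
  congr 1
  push_cast
  ring

/-- growth of the radii beats everything of lower order -/
theorem ev_small {rs : ℕ} (hrs : 2 ≤ rs) {η : ℝ} (hη : 0 < η) :
    ∃ i₀ : ℕ, ∀ i, i₀ ≤ i →
      Real.log (48923 * 10 ^ 6) + 4 * ((rr 8 rs i : ℝ) + aS 8 rs i) ≤ η * Sgood rs i := by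
  haveI : Fact (2 ≤ 8) := ⟨by norm_num⟩
  set C : ℝ := Real.log (48923 * 10 ^ 6) with hC
  have hC0 : 0 ≤ C := Real.log_nonneg (by norm_num)
  obtain ⟨i₀, hi₀⟩ := exists_nat_ge ((C + 8) / η + 1)
  refine ⟨i₀, fun i hi => ?_⟩
  have h1 : (i : ℝ) < rr 8 rs i := by exact_mod_cast lt_rr (β := 8) hrs i
  have h2 : (i₀ : ℝ) ≤ i := by exact_mod_cast hi
  set r : ℝ := (rr 8 rs i : ℝ) with hr
  have h3 : (C + 8) / η + 1 ≤ r := by linarith
  have h3' : 0 ≤ (C + 8) / η := by positivity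
  have hr1 : 1 ≤ r := by linarith
  have hr2 : (2 : ℝ) ≤ r := by
    have : 2 ≤ rr 8 rs i := le_trans hrs (le_rr (β := 8) (by omega) i)
    rw [hr]
    exact_mod_cast this
  have h4 : C + 8 ≤ η * r := by
    have h5 : (C + 8) / η ≤ r := by linarith
    rwa [div_le_iff₀ hη, mul_comm] at h5
  unfold Sgood aS
  rw [rr_succ_cast, ← hr]
  -- `S ≥ r ^ 7`
  have h5 : r ^ 7 ≤ r ^ 8 - r := by
    have h6 : r ^ 1 ≤ r ^ 7 := pow_le_pow_right₀ hr1 (by norm_num)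
    have h7 : r ^ 8 = r * r ^ 7 := by ring
    have h8 : 2 * r ^ 7 ≤ r * r ^ 7 := mul_le_mul_of_nonneg_right hr2 (by positivity)
    rw [h7]
    linarith [pow_one r]
  have h6 : r ≤ r ^ 5 := by
    calc r = r ^ 1 := (pow_one r).symm
      _ ≤ r ^ 5 := pow_le_pow_right₀ hr1 (by norm_num)
  have h7 : (1 : ℝ) ≤ r ^ 5 := one_le_pow₀ hr1
  have h8 : r ^ 5 ≤ r ^ 6 := pow_le_pow_right₀ hr1 (by norm_num)
  calc C + 4 * (r + r ^ 5) ≤ (C + 8) * r ^ 5 := by nlinarith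
    _ ≤ (C + 8) * r ^ 6 := mul_le_mul_of_nonneg_left h8 (by linarith)
    _ ≤ (η * r) * r ^ 6 := mul_le_mul_of_nonneg_right h4 (by positivity)
    _ = η * r ^ 7 := by ring
    _ ≤ η * (r ^ 8 - r) := mul_le_mul_of_nonneg_left h5 hη.le

theorem exp_form (τ c d : ℝ) : 48923 * 10 ^ 6 * Real.exp (4 * (τ + c + d)) =
    Real.exp (4 * τ + (Real.log (48923 * 10 ^ 6) + 4 * (c + d))) := by
  rw [show 4 * τ + (Real.log (48923 * 10 ^ 6) + 4 * (c + d)) =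
    Real.log (48923 * 10 ^ 6) + 4 * (τ + c + d) by ring, Real.exp_add,
    Real.exp_log (by norm_num)]

/-- **(F2)**: the field `m4_start` of `StW.Ok` -/
theorem m4_start_ok {rs : ℕ} (hrs : 2 ≤ rs) {η : ℝ} (hη : 0 < η) :
    ∃ i₀ : ℕ, ∀ i, i₀ ≤ i → ∀ {lam : ℝ} {yf : ℕ → ℤ × ℤ} {Vsf : ℕ → ℤ × ℤ → ℝ} {I : ℕ},
      i ≤ I → ∀ {N : ℕ} [NeZero N] {b : ℝ} {fl : (PP 8 yf rs I).Lb → Tor N → ℝ} {b' : ℝ}
        {ρ : Measure ℝ}, (World lam yf Vsf rs I N b fl b').Ok ρ → ∀ E : ℝ,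
        (stOf (World lam yf Vsf rs I N b fl b') i (Sgood rs i)).M4 E 0 ≤
          Real.exp (η * (stOf (World lam yf Vsf rs I N b fl b') i (Sgood rs i)).S) *
            (N : ℝ) ^ 2 := by
  obtain ⟨i₀, h⟩ := ev_small hrs hη
  refine ⟨i₀, fun i hi lam yf Vsf I hI N _ b fl b' ρ hD E => ?_⟩
  refine (m4_world hD E hI (Sgood rs i) le_rfl).trans ?_
  refine mul_le_mul_of_nonneg_right ?_ (by positivity)
  rw [exp_form]
  apply Real.exp_le_exp.2
  have := h i hi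
  change _ ≤ η * Sgood rs i
  linarith

/-- **(F3)**: the field `m4` of `StW.Ok`, with `C1 ≥ 5` -/
theorem m4_ok {rs : ℕ} (hrs : 2 ≤ rs) {C1 : ℝ} (hC1 : 5 ≤ C1) :
    ∃ i₀ : ℕ, ∀ i, i₀ ≤ i → ∀ {lam : ℝ} {yf : ℕ → ℤ × ℤ} {Vsf : ℕ → ℤ × ℤ → ℝ} {I : ℕ},
      i ≤ I → ∀ {N : ℕ} [NeZero N] {b : ℝ} {fl : (PP 8 yf rs I).Lb → Tor N → ℝ} {b' : ℝ}
        {ρ : Measure ℝ}, (World lam yf Vsf rs I N b fl b').Ok ρ → ∀ E : ℝ,
        ∀ τ ∈ Set.Icc 0 (stOf (World lam yf Vsf rs I N b fl b') i (Sgood rs i)).S,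
        (stOf (World lam yf Vsf rs I N b fl b') i (Sgood rs i)).M4 E τ ≤
          Real.exp (C1 * (stOf (World lam yf Vsf rs I N b fl b') i (Sgood rs i)).S) *
            (N : ℝ) ^ 2 := by
  obtain ⟨i₀, h⟩ := ev_small hrs (η := 1) one_pos
  refine ⟨i₀, fun i hi lam yf Vsf I hI N _ b fl b' ρ hD E τ hτ => ?_⟩
  obtain ⟨hτ0, hτ1⟩ := hτ
  change τ ≤ Sgood rs i at hτ1
  refine (m4_world hD E hI (Sgood rs i) hτ0).trans ?_
  refine mul_le_mul_of_nonneg_right ?_ (by positivity)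
  rw [exp_form]
  apply Real.exp_le_exp.2
  have h1 := h i hi
  change _ ≤ C1 * Sgood rs i
  have h2 : 5 * Sgood rs i ≤ C1 * Sgood rs i :=
    mul_le_mul_of_nonneg_right hC1 (hτ0.trans hτ1)
  linarith

end P365T2.H984
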