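import Vale.Agent.P365.T1a.StartLab
import Vale.Agent.P365.T1.StartD
import Vale.Agent.P365.V4.Def

/-!
# P365-T2, X-L0: fourth moment of the energy kernel in every state of the chain

`e_x ≥ ε` at the good sites (label `good`, probability `≥ 1 - 1/8192`), every other absorption
arbitrarily small:  `Av ∑_{x,y} e_x e_y |G_xy|² nrm(x-y)⁴ ≤ C ε⁻⁴ N²`.
Combes–Thomas with the first-passage weight + path expansion with an exponential weight.
-/

set_option linter.all false

namespace P365T2.H984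

open P365L P365O P365T1 Matrix Complex MeasureTheory Finset
open Vale.Agent.P365.J376

/-! ### the path expansion with the weight `2 ^ g` -/

section path

variable {ι : Type*} [DecidableEq ι]

theorem sum_pow_le [Fintype ι] {nb : ι → Finset ι} {b : ι} (h : Conn nb b) (B : Finset ι)
    {g : ι → ℕ} (hg0 : g b = 0) (hg : ∀ x, ∀ y ∈ nb x, g y ≤ g x + 1) {μ : ℝ} (hμ : 0 ≤ μ) :
    ∑ a, (2 : ℝ) ^ (g a) * Real.exp (-2 * μ * dg nb B b a) ≤
      ∑ n ∈ range (Fintype.card ι), ∑ l ∈ (Qp nb b n).filter (fun l => l.Nodup),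
        (2 : ℝ) ^ n * (Real.exp (-2 * μ * n) *
          Real.exp (4 * μ * (l.countP (fun z => decide (z ∈ B)) : ℕ))) := by
  classical
  have key : ∀ a, ∃ n ∈ range (Fintype.card ι), ∃ l ∈ (Qp nb b n).filter (fun l => l.Nodup),
      l.headD b = a ∧ (2 : ℝ) ^ (g a) * Real.exp (-2 * μ * dg nb B b a) ≤
      (2 : ℝ) ^ n * (Real.exp (-2 * μ * n) *
          Real.exp (4 * μ * (l.countP (fun z => decide (z ∈ B)) : ℕ))) := by
    intro a
    obtain ⟨n, l, h1, h2, h3, h4⟩ := Rch_dg h B a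
    have hlen := length_of_mem_Qp h1
    have hcard : l.length ≤ Fintype.card ι := h2.length_le_card
    refine ⟨n, mem_range.2 (by omega), l, mem_filter.2 ⟨h1, h2⟩, h3, ?_⟩
    have hga : g a ≤ n := by rw [← h3]; exact le_of_mem_Qp hg0 hg h1
    have hga' : (2 : ℝ) ^ (g a) ≤ (2 : ℝ) ^ n := pow_le_pow_right₀ (by norm_num) hga
    refine mul_le_mul hga' ?_ (Real.exp_pos _).le (by positivity)
    rw [← Real.exp_add]
    apply Real.exp_le_exp.2
    have h5 : n ≤ dg nb B b a + 2 * l.countP (fun z => decide (z ∈ B)) := by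
      cases l with
      | nil => simp at hlen
      | cons x t =>
        have h6 := length_le_gd B x t
        rw [hlen] at h6
        omega
    have h5' : (n : ℝ) ≤ dg nb B b a + 2 * (l.countP (fun z => decide (z ∈ B)) : ℕ) := by
      exact_mod_cast h5
    nlinarith [mul_le_mul_of_nonneg_left h5' hμ]
  choose n hn l hl hla hle using key
  have hpos : ∀ (m : ℕ) (l' : List ι), 0 ≤ (2 : ℝ) ^ m * (Real.exp (-2 * μ * m) *
          Real.exp (4 * μ * (l'.countP (fun z => decide (z ∈ B)) : ℕ))) := fun _ _ => by positivity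
  calc ∑ a, (2 : ℝ) ^ (g a) * Real.exp (-2 * μ * dg nb B b a)
      ≤ ∑ a, ∑ m ∈ range (Fintype.card ι), ∑ l' ∈ (Qp nb b m).filter (fun l => l.Nodup),
          if l'.headD b = a then (2 : ℝ) ^ m * (Real.exp (-2 * μ * m) *
          Real.exp (4 * μ * (l'.countP (fun z => decide (z ∈ B)) : ℕ))) else 0 := by
        refine Finset.sum_le_sum fun a _ => (hle a).trans ?_
        refine le_trans ?_ (Finset.single_le_sum (f := fun m => ∑ l' ∈ (Qp nb b m).filter
          (fun l => l.Nodup), if l'.headD b = a then (2 : ℝ) ^ m * (Real.exp (-2 * μ * m) *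
          Real.exp (4 * μ * (l'.countP (fun z => decide (z ∈ B)) : ℕ))) else 0)
          (fun m _ => Finset.sum_nonneg fun l' _ => by
            split_ifs
            · exact hpos _ _
            · exact le_rfl) (hn a))
        refine le_trans ?_ (Finset.single_le_sum (f := fun l' => if l'.headD b = a then
          (2 : ℝ) ^ (n a) * (Real.exp (-2 * μ * (n a : ℕ)) *
          Real.exp (4 * μ * (l'.countP (fun z => decide (z ∈ B)) : ℕ))) else 0)
          (fun l' _ => by
            split_ifs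
            · exact hpos _ _
            · exact le_rfl) (hl a))
        simp only [hla a, if_true]
        exact le_rfl
    _ = _ := by
        rw [Finset.sum_comm]
        refine Finset.sum_congr rfl fun m _ => ?_
        rw [Finset.sum_comm]
        refine Finset.sum_congr rfl fun l' _ => ?_
        rw [Finset.sum_ite_eq]
        simp

/-- expectation of the path expansion -/
theorem integral_sum_pow_le {Ω : Type*} [MeasurableSpace Ω] {P : Measure Ω} [Fintype ι]
    [IsProbabilityMeasure P] {nb : ι → Finset ι} {b : ι}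
    (h : Conn nb b) {B : Ω → Finset ι} (hB : ∀ x, MeasurableSet {ω | x ∈ B ω}) {g : ι → ℕ}
    (hg0 : g b = 0) (hg : ∀ x, ∀ y ∈ nb x, g y ≤ g x + 1) {μ : ℝ} (hμ : 0 ≤ μ)
    {Δ : ℕ} (hΔ : ∀ x, (nb x).card ≤ Δ) {c : ℝ} (hc : 0 ≤ c)
    (hE : ∀ l : List ι, l.Nodup →
      ∫ ω, Real.exp (4 * μ * (l.countP (fun z => decide (z ∈ B ω)) : ℕ)) ∂P ≤ c ^ l.length)
    (hq : Δ * c * Real.exp (-2 * μ) ≤ 1 / 4) :
    ∫ ω, ∑ a, (2 : ℝ) ^ (g a) * Real.exp (-2 * μ * dg nb (B ω) b a) ∂P ≤ 2 * c := by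
  classical
  have hint : ∀ l : List ι, Integrable
      (fun ω => Real.exp (4 * μ * (l.countP (fun z => decide (z ∈ B ω)) : ℕ))) P := fun l =>
    integrable_comp_finset hB (fun S => Real.exp (4 * μ * (l.countP (fun z => decide (z ∈ S)) : ℕ)))
  have hint2 : ∀ (n : ℕ) (l : List ι), Integrable (fun ω => (2 : ℝ) ^ n * (Real.exp (-2 * μ * n) *
      Real.exp (4 * μ * (l.countP (fun z => decide (z ∈ B ω)) : ℕ)))) P := fun n l =>
    ((hint l).const_mul _).const_mul _
  calc ∫ ω, ∑ a, (2 : ℝ) ^ (g a) * Real.exp (-2 * μ * dg nb (B ω) b a) ∂P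
      ≤ ∫ ω, ∑ n ∈ range (Fintype.card ι), ∑ l ∈ (Qp nb b n).filter (fun l => l.Nodup),
        (2 : ℝ) ^ n * (Real.exp (-2 * μ * n) *
          Real.exp (4 * μ * (l.countP (fun z => decide (z ∈ B ω)) : ℕ))) ∂P := by
        refine integral_mono (integrable_comp_finset hB
          (fun S => ∑ a, (2 : ℝ) ^ (g a) * Real.exp (-2 * μ * dg nb S b a))) ?_
          fun ω => sum_pow_le h (B ω) hg0 hg hμ
        exact integrable_finset_sum _ fun n _ => integrable_finset_sum _ fun l _ => hint2 n l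
    _ = ∑ n ∈ range (Fintype.card ι), ∑ l ∈ (Qp nb b n).filter (fun l => l.Nodup),
        (2 : ℝ) ^ n * (Real.exp (-2 * μ * n) *
          ∫ ω, Real.exp (4 * μ * (l.countP (fun z => decide (z ∈ B ω)) : ℕ)) ∂P) := by
        rw [integral_finset_sum _ fun n _ => integrable_finset_sum _ fun l _ => hint2 n l]
        refine Finset.sum_congr rfl fun n _ => ?_
        rw [integral_finset_sum _ fun l _ => hint2 n l]
        refine Finset.sum_congr rfl fun l _ => ?_
        rw [integral_const_mul, integral_const_mul]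
    _ ≤ ∑ n ∈ range (Fintype.card ι), c * (1 / 2 : ℝ) ^ n := by
        refine Finset.sum_le_sum fun n _ => ?_
        calc ∑ l ∈ (Qp nb b n).filter (fun l => l.Nodup),
              (2 : ℝ) ^ n * (Real.exp (-2 * μ * n) *
              ∫ ω, Real.exp (4 * μ * (l.countP (fun z => decide (z ∈ B ω)) : ℕ)) ∂P)
            ≤ ∑ l ∈ (Qp nb b n).filter (fun l => l.Nodup),
              (2 : ℝ) ^ n * (Real.exp (-2 * μ * n) * c ^ (n + 1)) := by
              refine Finset.sum_le_sum fun l hl => ?_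
              rw [mem_filter] at hl
              have h1 := hE l hl.2
              rw [length_of_mem_Qp hl.1] at h1
              gcongr
          _ = ((Qp nb b n).filter (fun l => l.Nodup)).card *
              ((2 : ℝ) ^ n * (Real.exp (-2 * μ * n) * c ^ (n + 1))) := by
              rw [sum_const, nsmul_eq_mul]
          _ ≤ (Δ : ℝ) ^ n * ((2 : ℝ) ^ n * (Real.exp (-2 * μ * n) * c ^ (n + 1))) := by
              have h1 : (((Qp nb b n).filter (fun l => l.Nodup)).card : ℝ) ≤ (Δ : ℝ) ^ n := by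
                exact_mod_cast (card_filter_le _ _).trans (card_Qp_le hΔ b n)
              gcongr
          _ = c * ((2 : ℝ) ^ n * (Δ * c * Real.exp (-2 * μ)) ^ n) := by
              have h2 : Real.exp (-2 * μ * n) = Real.exp (-2 * μ) ^ n := by
                rw [← Real.exp_nat_mul]; ring_nf
              rw [h2, mul_pow, mul_pow]; ring
          _ ≤ c * ((2 : ℝ) ^ n * (1 / 4) ^ n) := by
              have h3 : 0 ≤ Δ * c * Real.exp (-2 * μ) := by positivity
              gcongr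
          _ = c * (1 / 2 : ℝ) ^ n := by
              rw [← mul_pow]; norm_num
    _ ≤ c * 2 := by
        rw [← Finset.mul_sum]
        refine mul_le_mul_of_nonneg_left ?_ hc
        have := sum_geometric_two_le (Fintype.card ι)
        simpa using this
    _ = 2 * c := mul_comm _ _

end path

variable {N : ℕ} [NeZero N]

/-- the random constant of the first-passage bound, base point `b` -/
noncomputable def ZB (S : Finset (Tor N)) (b : Tor N) : ℝ :=
  ∑ a, (2 : ℝ) ^ (nrm (a - b)) * Real.exp (-2 * Real.log 8 * dg (nbT N) S b a)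

theorem ZB_nonneg (S : Finset (Tor N)) (b : Tor N) : 0 ≤ ZB S b :=
  Finset.sum_nonneg fun _ _ => by positivity

theorem one_le_ZB (S : Finset (Tor N)) (b : Tor N) : 1 ≤ ZB S b := by
  refine le_trans (le_of_eq ?_) (Finset.single_le_sum (f := fun a => (2 : ℝ) ^ (nrm (a - b)) *
    Real.exp (-2 * Real.log 8 * dg (nbT N) S b a)) (fun _ _ => by positivity) (mem_univ b))
  simp only [sub_self, nrm_zero, dg_self, pow_zero, Nat.cast_zero, mul_zero, Real.exp_zero, mul_one]

/-- **linear lower bound of the first-passage distance**, in multiplicative form -/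
theorem pow_mul_exp_le {μ : ℝ} (hμ : 0 < μ) (hμ1 : μ ≤ 1) (S : Finset (Tor N)) (b a : Tor N) :
    (nrm (a - b) : ℝ) ^ 4 * Real.exp (-2 * μ * dg (nbT N) S b a) ≤ 1944 / μ ^ 4 * ZB S b := by
  set n : ℕ := nrm (a - b) with hn
  set d : ℕ := dg (nbT N) S b a with hd
  have hZ1 := one_le_ZB S b
  have hZ0 : 0 < ZB S b := by linarith
  have hlog2 : 0 < Real.log 2 := Real.log_pos (by norm_num)
  have hlog8 : Real.log 8 = 3 * Real.log 2 := by
    rw [show (8 : ℝ) = 2 ^ 3 by norm_num, Real.log_pow]; norm_num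
  have h1 : (2 : ℝ) ^ n * Real.exp (-2 * Real.log 8 * d) ≤ ZB S b :=
    Finset.single_le_sum (f := fun a => (2 : ℝ) ^ (nrm (a - b)) *
    Real.exp (-2 * Real.log 8 * dg (nbT N) S b a)) (fun _ _ => by positivity) (mem_univ a)
  have h2 : (n : ℝ) * Real.log 2 + -2 * Real.log 8 * d ≤ Real.log (ZB S b) := by
    have h3 := Real.log_le_log (by positivity) h1
    rwa [Real.log_mul (by positivity) (by positivity), Real.log_pow, Real.log_exp] at h3
  rw [hlog8] at h2
  have hlZ : 0 ≤ Real.log (ZB S b) := Real.log_nonneg hZ1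
  have h069 : 0.6931471803 < Real.log 2 := Real.log_two_gt_d9
  -- exponent
  have h3 : -2 * μ * d ≤ -(μ * n / 3) + Real.log (ZB S b) := by
    have h4 : (n : ℝ) * Real.log 2 ≤ 6 * Real.log 2 * d + Real.log (ZB S b) := by linarith
    have h5 : (n : ℝ) ≤ 6 * d + Real.log (ZB S b) / Real.log 2 := by
      rw [← sub_nonneg]
      have : 6 * (d : ℝ) + Real.log (ZB S b) / Real.log 2 - n =
          (6 * Real.log 2 * d + Real.log (ZB S b) - n * Real.log 2) / Real.log 2 := by
        field_simp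
      rw [this]
      exact div_nonneg (by linarith) hlog2.le
    have h6 : Real.log (ZB S b) / Real.log 2 ≤ 3 * Real.log (ZB S b) := by
      rw [div_le_iff₀ hlog2]
      nlinarith
    nlinarith [mul_le_mul_of_nonneg_left h5 hμ.le, mul_le_mul_of_nonneg_right hμ1 hlZ,
      mul_le_mul_of_nonneg_left h6 hμ.le]
  have h4 : Real.exp (-2 * μ * d) ≤ Real.exp (-(μ * n / 3)) * ZB S b := by
    calc Real.exp (-2 * μ * d) ≤ Real.exp (-(μ * n / 3) + Real.log (ZB S b)) :=
          Real.exp_le_exp.2 h3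
      _ = _ := by rw [Real.exp_add, Real.exp_log hZ0]
  -- polynomial against exponential
  have h5 : (n : ℝ) ^ 4 * Real.exp (-(μ * n / 3)) ≤ 1944 / μ ^ 4 := by
    have h6 : (μ * n / 3) ^ 4 / 24 ≤ Real.exp (μ * n / 3) := by
      have := Real.pow_div_factorial_le_exp (μ * n / 3) (by positivity) 4
      norm_num [Nat.factorial] at this ⊢
      exact this
    rw [Real.exp_neg, ← div_eq_mul_inv, div_le_div_iff₀ (Real.exp_pos _) (by positivity)]
    have h7 : (n : ℝ) ^ 4 * μ ^ 4 = 1944 * ((μ * n / 3) ^ 4 / 24) := by ring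
    rw [h7]
    exact mul_le_mul_of_nonneg_left h6 (by norm_num)
  calc (n : ℝ) ^ 4 * Real.exp (-2 * μ * d)
      ≤ (n : ℝ) ^ 4 * (Real.exp (-(μ * n / 3)) * ZB S b) :=
        mul_le_mul_of_nonneg_left h4 (by positivity)
    _ = (n : ℝ) ^ 4 * Real.exp (-(μ * n / 3)) * ZB S b := by ring
    _ ≤ 1944 / μ ^ 4 * ZB S b := mul_le_mul_of_nonneg_right h5 hZ0.le

/-- the weight `μ dg` is admissible for `CT_col`, any domain -/
theorem weight_okX {X : Finset (Tor N)} {W : Tor N → ℂ} (hW : ∀ x, (W x).im < 0)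
    (B : Finset (Tor N)) {μ : ℝ} (hμ : 0 ≤ μ)
    (hbig : ∀ x, x ∉ B → 8 * Real.sinh μ ≤ -(W x).im) (b x : Tor N) :
    ∑ y, |ATX N X x y| * |Real.sinh (μ * dg (nbT N) B b x - μ * dg (nbT N) B b y)| ≤
      (-(W x).im) / 2 := by
  refine le_trans (Finset.sum_le_sum fun y _ => ?_) (weight_ok hW B hμ hbig b x)
  refine mul_le_mul_of_nonneg_right ?_ (abs_nonneg _)
  rw [abs_of_nonneg (ATX_nonneg x y), abs_of_nonneg (AT_nonneg x y)]
  exact ATX_le x y

/-- deterministic fourth moment, one column -/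
theorem col_four {X : Finset (Tor N)} {W : Tor N → ℂ} (hW : ∀ x, (W x).im < 0)
    (B : Finset (Tor N)) {μ : ℝ} (hμ : 0 < μ) (hμ1 : μ ≤ 1)
    (hbig : ∀ x, x ∉ B → 8 * Real.sinh μ ≤ -(W x).im) (b : Tor N) :
    ∑ a, (-(W a).im) * (-(W b).im) * KK (ATX N X) W a b * (nrm (a - b) : ℝ) ^ 4 ≤
      4 * (1944 / μ ^ 4 * ZB B b) := by
  have h1 := CT_col (ATX_symm N X) hW (φ := fun x => μ * dg (nbT N) B b x)
    (fun x => weight_okX hW B hμ.le hbig b x) b
  have he : ∀ x, 0 ≤ -(W x).im := fun x => by linarith [hW x]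
  have hC : 0 ≤ 1944 / μ ^ 4 * ZB B b := mul_nonneg (by positivity) (ZB_nonneg B b)
  calc ∑ a, (-(W a).im) * (-(W b).im) * KK (ATX N X) W a b * (nrm (a - b) : ℝ) ^ 4
      ≤ ∑ a, ((-(W b).im) * ((-(W a).im) * KK (ATX N X) W a b *
          Real.exp (2 * (μ * dg (nbT N) B b a - μ * dg (nbT N) B b b)))) *
          (1944 / μ ^ 4 * ZB B b) := by
        refine Finset.sum_le_sum fun a _ => ?_
        have h2 := pow_mul_exp_le hμ hμ1 B b a
        have h3 : Real.exp (2 * (μ * dg (nbT N) B b a - μ * dg (nbT N) B b b)) *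
            Real.exp (-2 * μ * dg (nbT N) B b a) = 1 := by
          rw [dg_self, Nat.cast_zero, mul_zero, sub_zero, ← Real.exp_add]
          have : 2 * (μ * dg (nbT N) B b a) + -2 * μ * dg (nbT N) B b a = 0 := by ring
          rw [this, Real.exp_zero]
        have h4 : 0 ≤ (-(W b).im) * ((-(W a).im) * KK (ATX N X) W a b *
            Real.exp (2 * (μ * dg (nbT N) B b a - μ * dg (nbT N) B b b))) :=
          mul_nonneg (he b) (mul_nonneg (mul_nonneg (he a) (KK_nonneg _ _)) (Real.exp_pos _).le)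
        refine le_trans (le_of_eq ?_) (mul_le_mul_of_nonneg_left h2 h4)
        have : ∀ u v k p q n : ℝ, p * q = 1 → u * v * k * n = v * (u * k * p) * (n * q) := by
          intro u v k p q n h
          calc u * v * k * n = u * v * k * n * (p * q) := by rw [h, mul_one]
            _ = _ := by ring
        exact this _ _ _ _ _ _ h3
    _ = ((-(W b).im) * ∑ a, (-(W a).im) * KK (ATX N X) W a b *
          Real.exp (2 * (μ * dg (nbT N) B b a - μ * dg (nbT N) B b b))) *
          (1944 / μ ^ 4 * ZB B b) := by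
        rw [Finset.mul_sum, Finset.sum_mul]
    _ ≤ 4 * (1944 / μ ^ 4 * ZB B b) := mul_le_mul_of_nonneg_right h1 hC

/-- `8 sinh (ε / 16) ≤ ε` for `ε ≤ 1` -/
theorem sinh_le {ε : ℝ} (h0 : 0 < ε) (h1 : ε ≤ 1) : 8 * Real.sinh (ε / 16) ≤ ε := by
  have h2 : Real.exp (ε / 16) ≤ 1 + 2 * (ε / 16) := by
    have h3 : |ε / 16| ≤ 1 := by rw [abs_of_pos (by positivity)]; linarith
    have h4 := Real.abs_exp_sub_one_le h3
    rw [abs_of_pos (show 0 < ε / 16 by positivity)] at h4
    have := le_abs_self (Real.exp (ε / 16) - 1)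
    linarith
  have h3 : 1 - ε / 16 ≤ Real.exp (-(ε / 16)) := by
    have := Real.add_one_le_exp (-(ε / 16))
    linarith
  rw [Real.sinh_eq]
  linarith

/-- **pathwise fourth moment**: absorption at least `ε` off `B` -/
theorem four_path {X : Finset (Tor N)} {W : Tor N → ℂ} (hW : ∀ x, (W x).im < 0)
    (B : Finset (Tor N)) {ε : ℝ} (h0 : 0 < ε) (h1 : ε ≤ 1)
    (hbig : ∀ x, x ∉ B → ε ≤ -(W x).im) :
    ∑ b, ∑ a, (-(W a).im) * (-(W b).im) * KK (ATX N X) W a b * (nrm (a - b) : ℝ) ^ 4 ≤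
      509607936 / ε ^ 4 * ∑ b, ZB B b := by
  rw [Finset.mul_sum]
  refine Finset.sum_le_sum fun b _ => ?_
  refine (col_four hW B (μ := ε / 16) (by positivity) (by linarith)
    (fun x hx => (sinh_le h0 h1).trans (hbig x hx)) b).trans (le_of_eq ?_)
  field_simp
  ring

/-! ### average over the labels -/

section labels

variable {Λ : Type*} [Fintype Λ] [DecidableEq Λ]

/-- average of `∑_b ZB` -/
theorem ZB_sum_labels (p : Λ → ℝ) (hp : ∀ l, 0 ≤ p l) (hp1 : ∑ l, p l = 1)
    (good : Λ) (h1 : 1 - p good ≤ 1 / 8192) :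
    ∑ L : Tor N → Λ, (∏ x, p (L x)) *
      ∑ b, ZB (Finset.univ.filter fun x => L x ≠ good) b ≤ 6 * Fintype.card (Tor N) := by
  classical
  letI : MeasurableSpace Λ := ⊤
  haveI : MeasurableSingletonClass Λ := ⟨fun _ => trivial⟩
  obtain ⟨κ, hκ⟩ : ∃ κ : Tor N → Measure Λ,
      κ = fun x => ∑ l, ENNReal.ofReal (p l) • Measure.dirac l := ⟨_, rfl⟩
  have hκs : ∀ x (S : Set Λ), (κ x).real S = ∑ l, p l * S.indicator (fun _ => (1 : ℝ)) l := by
    intro x S
    simp only [hκ, Measure.real]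
    rw [Measure.finset_sum_apply, ENNReal.toReal_sum (fun l _ => by
      rw [Measure.smul_apply, smul_eq_mul]
      exact ENNReal.mul_ne_top ENNReal.ofReal_ne_top (measure_ne_top _ _))]
    refine Finset.sum_congr rfl fun l _ => ?_
    rw [Measure.smul_apply, smul_eq_mul, ENNReal.toReal_mul, ENNReal.toReal_ofReal (hp l),
      Measure.dirac_apply' _ (by trivial)]
    congr 1
    by_cases h : l ∈ S <;> simp [h]
  haveI : ∀ x, IsProbabilityMeasure (κ x) := by
    intro x
    refine ⟨?_⟩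
    simp only [hκ]
    rw [Measure.finset_sum_apply]
    simp only [Measure.smul_apply, smul_eq_mul, measure_univ, mul_one]
    rw [← ENNReal.ofReal_sum_of_nonneg fun l _ => hp l, hp1, ENNReal.ofReal_one]
  have hsing : ∀ x l, (κ x).real {l} = p l := by
    intro x l
    rw [hκs, Finset.sum_eq_single l]
    · simp
    · intro l' _ hne; simp [hne]
    · intro h; exact absurd (Finset.mem_univ _) h
  set B : (Tor N → Λ) → Finset (Tor N) := fun L => Finset.univ.filter fun x => L x ≠ good with hB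
  have hmeas : ∀ S : Set (Tor N → Λ), MeasurableSet S := fun S => S.toFinite.measurableSet
  have hgood : ∀ x, (κ x).real {l | l ≠ good} ≤ 1 / 8192 := by
    intro x
    have hc : {l : Λ | l ≠ good} = {good}ᶜ := by ext l; simp
    rw [hc, measureReal_compl (MeasurableSet.singleton good), hsing, probReal_univ]
    exact h1
  have hlog : 0 ≤ Real.log 8 := Real.log_nonneg (by norm_num)
  have h8 : Real.exp (Real.log 8) = 8 := Real.exp_log (by norm_num)
  have hs : ∀ k : ℕ, Real.exp (4 * Real.log 8 * k) = (4096 : ℝ) ^ k := by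
    intro k
    have : 4 * Real.log 8 * k = (4 * k : ℕ) * Real.log 8 := by push_cast; ring
    rw [this, Real.exp_nat_mul, h8, pow_mul]
    norm_num
  have he1 : Real.exp 1 ≤ 2.7182818286 := Real.exp_one_lt_d9.le
  have hE : ∀ l : List (Tor N), l.Nodup →
      ∫ ω, Real.exp (4 * Real.log 8 * (l.countP (fun z => decide (z ∈ B ω)) : ℕ))
        ∂(Measure.pi κ) ≤ Real.exp 1 ^ l.length := by
    intro l hl
    refine coins (P := Measure.pi κ) (J := Tor N ⊕ Empty)
      (XX good (fun k : Empty => k.elim) (fun k => k.elim)) (fun j => hmeas _)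
      (qq (1 / 8192) (fun k : Empty => k.elim)) ?_
      (coins_prod κ good (fun k : Empty => k.elim) (fun k => k.elim) (fun k => k.elim)
        (τ := 1 / 8192) (by norm_num) (by norm_num) (fun k => k.elim) hgood (fun k => k.elim))
      (fun j => Sum.elim (fun x => {x}) (fun k : Empty => k.elim) j) (fun x => hmeas _) ?_
      (s := 4 * Real.log 8) (by positivity) ?_ l hl
    · intro j
      cases j with
      | inl x => exact (by norm_num : (0 : ℝ) ≤ 1 / 8192)
      | inr k => exact k.elim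
    · intro ω x hx
      refine ⟨Sum.inl x, ?_, ?_⟩
      · simpa [XX, hB] using hx
      · simp
    · intro x
      rw [Fintype.sum_sum_type]
      simp only [Sum.elim_inl, Finset.mem_singleton, Finset.card_singleton, qq, hs, pow_one,
        Finset.univ_eq_empty, Finset.sum_empty, add_zero]
      rw [Finset.sum_ite_eq, if_pos (mem_univ x)]
      norm_num
  have hq : (4 : ℕ) * Real.exp 1 * Real.exp (-2 * Real.log 8) ≤ 1 / 4 := by
    have h2 : Real.exp (-2 * Real.log 8) = 1 / 64 := by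
      have : -2 * Real.log 8 = -((2 : ℕ) * Real.log 8) := by push_cast; ring
      rw [this, Real.exp_neg, Real.exp_nat_mul, h8]
      norm_num
    rw [h2]
    push_cast
    linarith
  have hterm : ∀ b : Tor N, ∫ ω, ZB (B ω) b ∂(Measure.pi κ) ≤ 2 * Real.exp 1 := by
    intro b
    refine integral_sum_pow_le (nb := nbT N) (b := b) (conn_tor b) (fun x => hmeas _)
      (g := fun a => nrm (a - b)) (by simp only [sub_self]; exact nrm_zero) ?_ hlog (Δ := 4)
      (fun x => card_nbT_le x) (Real.exp_pos _).le hE hq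
    intro x y hy
    have h2 : y - b = (x - b) + (y - x) := by abel
    rw [h2]
    exact (nrm_add_le _ _).trans (Nat.add_le_add_left (nrm_nbs (mem_nbT.1 hy)) _)
  have hsum : ∫ ω, ∑ b, ZB (B ω) b ∂(Measure.pi κ) ≤ 6 * Fintype.card (Tor N) := by
    rw [integral_finset_sum _ fun b _ => Integrable.of_finite]
    calc ∑ b : Tor N, ∫ ω, ZB (B ω) b ∂(Measure.pi κ) ≤ ∑ b : Tor N, 2 * Real.exp 1 :=
          Finset.sum_le_sum fun b _ => hterm b
      _ = 2 * Real.exp 1 * Fintype.card (Tor N) := by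
          rw [Finset.sum_const, Finset.card_univ, nsmul_eq_mul]; ring
      _ ≤ 6 * Fintype.card (Tor N) :=
          mul_le_mul_of_nonneg_right (by linarith) (Nat.cast_nonneg _)
  rw [integral_fintype Integrable.of_finite] at hsum
  refine le_trans (le_of_eq ?_) hsum
  refine Finset.sum_congr rfl fun L _ => ?_
  rw [smul_eq_mul]
  congr 1
  rw [Measure.real, ← Set.univ_pi_singleton, Measure.pi_pi, ENNReal.toReal_prod]
  exact Finset.prod_congr rfl fun x _ => (hsing x (L x)).symm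

end labels

/-- the fourth moment of the energy kernel -/
noncomputable def En4 (A : Matrix (Tor N) (Tor N) ℝ) (W : Tor N → ℂ) : ℝ :=
  ∑ x, ∑ y, (-(W x).im) * (-(W y).im) * KK A W x y * (nrm (x - y) : ℝ) ^ 4

/-- expectation of any functional which is pathwise at most `c * En4` -/
theorem four_moment_of {Λ : Type} [Fintype Λ] (p : Λ → ℝ) (hp : ∀ l, 0 ≤ p l)
    (hp1 : ∑ l, p l = 1) (good : Λ) (h1 : 1 - p good ≤ 1 / 8192) (ν : Λ → Measure ℝ)
    (hν : ∀ k, IsProbabilityMeasure (ν k)) (X : Finset (Tor N)) (E : ℝ)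
    (e : (Tor N → Λ) → Tor N → ℝ) (he : ∀ l x, 0 < e l x) {ε : ℝ} (h0 : 0 < ε) (hε : ε ≤ 1)
    (hbig : ∀ l x, l x = good → ε ≤ e l x) {c : ℝ} (hc : 0 ≤ c)
    (G : (Tor N → Λ) → (Tor N → ℂ) → ℝ) (hG0 : ∀ l W, (∀ x, (W x).im < 0) → 0 ≤ G l W)
    (hG : ∀ l W, (∀ x, (W x).im < 0) → G l W ≤ c * En4 (ATX N X) W) :
    AvG p ν E e G ≤ c * (3057647616 / ε ^ 4) * Fintype.card (Tor N) := by
  classical
  have hEx : ∀ l : Tor N → Λ, Ex (fun x => ν (l x)) E (e l) (G l) ≤
      c * (509607936 / ε ^ 4 * ∑ b, ZB (Finset.univ.filter fun x => l x ≠ good) b) := by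
    intro l
    have him : ∀ v x, (WV E (e l) v x).im < 0 := by
      intro v x
      rw [P365T1.WV_im]
      linarith [he l x]
    refine Ex_le (fun v => hG0 l _ (him v)) fun v => ?_
    refine (hG l _ (him v)).trans (mul_le_mul_of_nonneg_left ?_ hc)
    refine le_trans (le_of_eq ?_) (four_path (X := X) (him v)
      (Finset.univ.filter fun x => l x ≠ good) h0 hε ?_)
    · unfold En4
      rw [Finset.sum_comm]
    · intro x hx
      rw [P365T1.WV_im, neg_neg]
      refine hbig l x ?_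
      by_contra hcon
      exact hx (by simp [hcon])
  unfold AvG
  calc ∑ l : Tor N → Λ, (∏ x, p (l x)) * Ex (fun x => ν (l x)) E (e l) (G l)
      ≤ ∑ l : Tor N → Λ, (∏ x, p (l x)) *
        (c * (509607936 / ε ^ 4 * ∑ b, ZB (Finset.univ.filter fun x => l x ≠ good) b)) :=
        Finset.sum_le_sum fun l _ => mul_le_mul_of_nonneg_left (hEx l)
          (Finset.prod_nonneg fun x _ => hp _)
    _ = c * (509607936 / ε ^ 4) * ∑ l : Tor N → Λ, (∏ x, p (l x)) *
        ∑ b, ZB (Finset.univ.filter fun x => l x ≠ good) b := by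
        rw [Finset.mul_sum]
        exact Finset.sum_congr rfl fun l _ => by ring
    _ ≤ c * (509607936 / ε ^ 4) * (6 * Fintype.card (Tor N)) :=
        mul_le_mul_of_nonneg_left (ZB_sum_labels p hp hp1 good h1) (by positivity)
    _ = c * (3057647616 / ε ^ 4) * Fintype.card (Tor N) := by ring

theorem En4_nonneg {A : Matrix (Tor N) (Tor N) ℝ} {W : Tor N → ℂ} (hW : ∀ x, (W x).im < 0) :
    0 ≤ En4 A W := by
  unfold En4
  refine Finset.sum_nonneg fun x _ => Finset.sum_nonneg fun y _ => ?_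
  have h2 := hW x
  have h3 := hW y
  exact mul_nonneg (mul_nonneg (mul_nonneg (by linarith) (by linarith)) (KK_nonneg _ _))
    (by positivity)

/-- **X-L0**: fourth moment in every state with absorption at least `ε` at the good sites -/
theorem four_moment {Λ : Type} [Fintype Λ] (p : Λ → ℝ) (hp : ∀ l, 0 ≤ p l) (hp1 : ∑ l, p l = 1)
    (good : Λ) (h1 : 1 - p good ≤ 1 / 8192) (ν : Λ → Measure ℝ)
    (hν : ∀ k, IsProbabilityMeasure (ν k)) (X : Finset (Tor N)) (E : ℝ)
    (e : (Tor N → Λ) → Tor N → ℝ) (he : ∀ l x, 0 < e l x) {ε : ℝ} (h0 : 0 < ε) (hε : ε ≤ 1)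
    (hbig : ∀ l x, l x = good → ε ≤ e l x) :
    AvG p ν E e (fun _ W => En4 (ATX N X) W) ≤
      3057647616 / ε ^ 4 * Fintype.card (Tor N) := by
  have h := four_moment_of p hp hp1 good h1 ν hν X E e he h0 hε hbig (c := 1) zero_le_one
    (fun _ W => En4 (ATX N X) W) (fun l W hW => En4_nonneg hW) (fun l W hW => by rw [one_mul])
  rwa [one_mul] at h

/-- square of the distance given by a finite family of position functions -/
noncomputable def dq {κ : Type*} [Fintype κ] (a : κ → Tor N → ℝ) (x y : Tor N) : ℝ :=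
  ∑ k, (a k x - a k y) ^ 2

theorem dq_nonneg {κ : Type*} [Fintype κ] (a : κ → Tor N → ℝ) (x y : Tor N) : 0 ≤ dq a x y :=
  Finset.sum_nonneg fun _ _ => sq_nonneg _

/-- **X-L0**, the form of 219 (`M4`): any family with `∑_k (a_k x - a_k y)² ≤ Lf nrm(x-y)²` -/
theorem M4_le {Λ : Type} [Fintype Λ] (p : Λ → ℝ) (hp : ∀ l, 0 ≤ p l) (hp1 : ∑ l, p l = 1)
    (good : Λ) (h1 : 1 - p good ≤ 1 / 8192) (ν : Λ → Measure ℝ)
    (hν : ∀ k, IsProbabilityMeasure (ν k)) (X : Finset (Tor N)) (E : ℝ)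
    (e : (Tor N → Λ) → Tor N → ℝ) (he : ∀ l x, 0 < e l x) {ε : ℝ} (h0 : 0 < ε) (hε : ε ≤ 1)
    (hbig : ∀ l x, l x = good → ε ≤ e l x) {κ : Type*} [Fintype κ] (a : κ → Tor N → ℝ)
    {Lf : ℝ} (ha : ∀ x y, dq a x y ≤ Lf * (nrm (x - y) : ℝ) ^ 2) :
    AvG p ν E e (fun l W => ∑ x, ∑ y, (-(W x).im) * (-(W y).im) * KK (ATX N X) W x y *
      dq a x y ^ 2) ≤ Lf ^ 2 * (3057647616 / ε ^ 4) * Fintype.card (Tor N) := by
  refine four_moment_of p hp hp1 good h1 ν hν X E e he h0 hε hbig (sq_nonneg Lf) _ ?_ ?_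
  · intro l W hW
    refine Finset.sum_nonneg fun x _ => Finset.sum_nonneg fun y _ => ?_
    have h2 := hW x
    have h3 := hW y
    exact mul_nonneg (mul_nonneg (mul_nonneg (by linarith) (by linarith)) (KK_nonneg _ _))
      (sq_nonneg _)
  · intro l W hW
    unfold En4
    rw [Finset.mul_sum]
    refine Finset.sum_le_sum fun x _ => ?_
    rw [Finset.mul_sum]
    refine Finset.sum_le_sum fun y _ => ?_
    have h2 := hW x
    have h3 := hW y
    have h4 : dq a x y ^ 2 ≤ Lf ^ 2 * (nrm (x - y) : ℝ) ^ 4 := by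
      calc dq a x y ^ 2 ≤ (Lf * (nrm (x - y) : ℝ) ^ 2) ^ 2 :=
            pow_le_pow_left₀ (dq_nonneg a x y) (ha x y) 2
        _ = _ := by ring
    calc (-(W x).im) * (-(W y).im) * KK (ATX N X) W x y * dq a x y ^ 2
        ≤ (-(W x).im) * (-(W y).im) * KK (ATX N X) W x y * (Lf ^ 2 * (nrm (x - y) : ℝ) ^ 4) :=
          mul_le_mul_of_nonneg_left h4 (mul_nonneg (mul_nonneg (by linarith) (by linarith))
            (KK_nonneg _ _))
      _ = _ := by ring

/-- **X-L0 in a state of the chain V4**: admissible profile of family `i`, bulk strength `sb` -/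
theorem M4_le_prf {D : V3} {ρ : Measure ℝ} (hD : D.Ok ρ) (E : ℝ) {i : ℕ} (hi : i ≤ D.I)
    {sb sc ε b1 : ℝ} (hsb : 0 < sb) (hsb1 : sb ≤ 1) {e : (Tor N → D.Λ) → Tor N → ℝ}
    (he : Prf D N i sb sc ε b1 e) (X : Finset (Tor N)) {κ : Type*} [Fintype κ]
    (a : κ → Tor N → ℝ) {Lf : ℝ} (ha : ∀ x y, dq a x y ≤ Lf * (nrm (x - y) : ℝ) ^ 2) :
    AvG D.p D.ν E e (fun l W => ∑ x, ∑ y, (-(W x).im) * (-(W y).im) * KK (ATX N X) W x y *
      dq a x y ^ 2) ≤
      Lf ^ 2 * (3057647616 / (sb * (D.e0 i * Real.exp (-(D.a i)))) ^ 4) *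
        Fintype.card (Tor N) := by
  have h1 : 0 < D.e0 i * Real.exp (-(D.a i)) := mul_pos (hD.e0_pos i hi) (Real.exp_pos _)
  have h2 : D.e0 i * Real.exp (-(D.a i)) ≤ 1 := by
    have h3 : Real.exp (-(D.a i)) ≤ 1 := Real.exp_le_one_iff.2 (by linarith [hD.a_nonneg i hi])
    calc D.e0 i * Real.exp (-(D.a i)) ≤ 1 * 1 :=
          mul_le_mul (hD.e0_le i hi) h3 (Real.exp_pos _).le zero_le_one
      _ = 1 := one_mul 1
  refine M4_le D.p hD.p_nonneg hD.p_sum D.good hD.p_good D.ν hD.prob X E e he.pos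
    (mul_pos hsb h1) (by nlinarith) (fun l x hx => ?_) a ha
  exact he.mov_ge l x (by rw [hx]; exact hD.mov_good)

/-- the same for `log`: the fourth moment per site is at most `exp (C (log 1/sb + log 1/e0 + a))` -/
theorem M4_le_exp {D : V3} {ρ : Measure ℝ} (hD : D.Ok ρ) (E : ℝ) {i : ℕ} (hi : i ≤ D.I)
    {sb sc ε b1 : ℝ} (hsb : 0 < sb) (hsb1 : sb ≤ 1) {e : (Tor N → D.Λ) → Tor N → ℝ}
    (he : Prf D N i sb sc ε b1 e) (X : Finset (Tor N)) {κ : Type*} [Fintype κ]
    (a : κ → Tor N → ℝ) {Lf : ℝ} (ha : ∀ x y, dq a x y ≤ Lf * (nrm (x - y) : ℝ) ^ 2) :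
    AvG D.p D.ν E e (fun l W => ∑ x, ∑ y, (-(W x).im) * (-(W y).im) * KK (ATX N X) W x y *
      dq a x y ^ 2) ≤
      Lf ^ 2 * 3057647616 * Real.exp (4 * (Real.log (1 / sb) + Real.log (1 / D.e0 i) + D.a i)) *
        Fintype.card (Tor N) := by
  refine (M4_le_prf hD E hi hsb hsb1 he X a ha).trans (le_of_eq ?_)
  have h0 := hD.e0_pos i hi
  have h3 : Real.exp (4 * (Real.log (1 / sb) + Real.log (1 / D.e0 i) + D.a i)) =
      1 / (sb * (D.e0 i * Real.exp (-(D.a i)))) ^ 4 := by
    have : 4 * (Real.log (1 / sb) + Real.log (1 / D.e0 i) + D.a i) =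
        (4 : ℕ) * (Real.log (1 / sb) + Real.log (1 / D.e0 i) + D.a i) := by push_cast; ring
    rw [this, Real.exp_nat_mul, Real.exp_add, Real.exp_add, Real.exp_log (by positivity),
      Real.exp_log (by positivity), Real.exp_neg]
    have := Real.exp_pos (D.a i)
    field_simp
  rw [h3]
  ring

theorem dq_phi_le (x y : Tor N) : dq (phi N) x y ≤ 4 * (nrm (x - y) : ℝ) ^ 2 := by
  unfold dq
  calc ∑ k : Fin 4, (phi N k x - phi N k y) ^ 2 ≤ ∑ k : Fin 4, (nrm (x - y) : ℝ) ^ 2 := by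
        refine Finset.sum_le_sum fun k _ => ?_
        rw [← sq_abs]
        exact pow_le_pow_left₀ (abs_nonneg _) (phi_lip k x y) 2
    _ = 4 * (nrm (x - y) : ℝ) ^ 2 := by simp

/-- **X-L0 for the angle functions** (`M4` of 219), state of the chain V4 -/
theorem M4_phi_exp {D : V3} {ρ : Measure ℝ} (hD : D.Ok ρ) (E : ℝ) {i : ℕ} (hi : i ≤ D.I)
    {sb sc ε b1 : ℝ} (hsb : 0 < sb) (hsb1 : sb ≤ 1) {e : (Tor N → D.Λ) → Tor N → ℝ}
    (he : Prf D N i sb sc ε b1 e) (X : Finset (Tor N)) :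
    AvG D.p D.ν E e (fun l W => ∑ x, ∑ y, (-(W x).im) * (-(W y).im) * KK (ATX N X) W x y *
      (∑ k : Fin 4, (phi N k x - phi N k y) ^ 2) ^ 2) ≤
      48923 * 10 ^ 6 * Real.exp (4 * (Real.log (1 / sb) + Real.log (1 / D.e0 i) + D.a i)) *
        Fintype.card (Tor N) := by
  have h := M4_le_exp hD E hi hsb hsb1 he X (phi N) dq_phi_le
  simp only [dq] at h
  refine h.trans ?_
  refine mul_le_mul_of_nonneg_right ?_ (Nat.cast_nonneg _)
  refine mul_le_mul_of_nonneg_right (by norm_num) (Real.exp_pos _).le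

end P365T2.H984
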